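import Vale.Agent.P318.R2.H743.Inst
import Vale.Agent.P318.R2.H858.Bridge

/-!
# Capacities constant on the classes of a coherent configuration

`phi`, `glValue` and `cutCap` are defined in `Vale.Agent.P318.H867.Defs`; `Coherent`, `Comm`,
`ClassFun`, `Chain` and `ShortChains` in `Vale.Agent.P318.R2.H743.Scheme`.
-/

open Finset

namespace Vale.Agent.Results.P318.AssociationSchemes

open Vale.Agent.P318.H867 Vale.Agent.P318.H743

/-- `d` is a semimetric on `V`. -/
def IsSemimetric {V : Type} (d : V → V → ℝ) : Prop :=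
  (∀ u, d u u = 0) ∧ (∀ u v, d u v = d v u) ∧ ∀ u v w, d u w ≤ d u v + d v w

theorem gl_of_lr {V ι : Type} [Fintype V] [DecidableEq V] [Nontrivial V] [DecidableEq ι]
    {r : V → V → ι} {c : V → V → ℝ} {D : ℕ} (hr : Coherent r) (hcr : ClassFun r c)
    (hc : ∀ u v, 0 ≤ c u v) (hs : ∀ u v, c u v = c v u) (hD1 : 1 ≤ D)
    (hD : ShortChains r c D) :
    (∀ d : V → V → ℝ, IsSemimetric d →
      phi c * ∑ u, ∑ v, d u v ≤ 16 * D * ∑ u, ∑ v, c u v * d u v) ∧
    phi c ≤ 16 * D * glValue c ∧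
    (Comm r → phi c ≤ 461 * Real.sqrt D * glValue c) := by
  have hD0 : (0 : ℝ) < D := by exact_mod_cast hD1
  refine ⟨fun d hd => lr_main hr hc hs hcr hD1 hD hd.1 hd.2.1 hd.2.2, ?_, fun hcm => ?_⟩
  · refine Vale.Agent.P318.H724.phi_le_gl' (by positivity) fun d hneg => ?_
    obtain ⟨⟨X, hX⟩, ht⟩ := hneg
    exact lr_main hr hc hs hcr hD1 hD (fun x => by rw [hX]; simp)
      (fun x y => by rw [hX, hX, norm_sub_rev]) ht
  · exact Vale.Agent.P318.H724.phi_le_gl' (by positivity) fun d hneg =>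
      gl_main hr hcm hc hs hcr hD1 hD hneg

/-- (1) Let the capacities `c` be constant on the classes of a coherent configuration `r`, and let
`D` bound the number of steps needed inside unions of classes on which `c` does not vanish.  Then
the sparsest cut inequality holds for all semimetrics with the loss `16 D`, and if `r` is
commutative, the Goemans-Linial relaxation has gap at most `461 √D`.  (2) Configurations with
symmetric classes are commutative.  (3) If there are at most `k + 1` classes of unordered pairs,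
one can take `D = k`.  (4) The case of the orbits of a group on pairs.  (5) The case of a
conjugation invariant function on a finite group.  (6) If every point sees at most `m` classes of
other points, the spectral relaxation (all vectors, no triangle inequality) loses at most the
factor `m`.  (7) The case of a group all of whose point stabilizers have at most `m` orbits on the
other points.  (8) Smaller constants in terms of the number `k` of classes which together with
their reverses contain all pairs of distinct points. -/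
theorem result :
    (∀ (V ι : Type) [Fintype V] [DecidableEq V] [Nontrivial V] [DecidableEq ι]
      (r : V → V → ι) (c : V → V → ℝ) (D : ℕ),
      Coherent r → ClassFun r c → (∀ u v, 0 ≤ c u v) → (∀ u v, c u v = c v u) →
      1 ≤ D → ShortChains r c D →
      (∀ d : V → V → ℝ, IsSemimetric d →
        phi c * ∑ u, ∑ v, d u v ≤ 16 * D * ∑ u, ∑ v, c u v * d u v) ∧
      phi c ≤ 16 * D * glValue c ∧
      (Comm r → phi c ≤ 461 * Real.sqrt D * glValue c)) ∧
    (∀ (V ι : Type) [Fintype V] [DecidableEq ι] (r : V → V → ι),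
      Coherent r → (∀ u v, r u v = r v u) → Comm r) ∧
    (∀ (V ι κ : Type) [Fintype V] [DecidableEq ι] [Fintype κ] (r : V → V → ι) (s : V → V → κ)
      (c : V → V → ℝ) (k : ℕ), Coherent r →
      (∀ u v u' v', s u v = s u' v' → r u v = r u' v' ∨ r u v = r v' u') →
      Fintype.card κ ≤ k + 1 → ShortChains r c k) ∧
    (∀ (V G : Type) [Fintype V] [DecidableEq V] [Nontrivial V] [Group G] [MulAction G V]
      (c : V → V → ℝ) (k : ℕ) (p : Fin (k + 1) → V × V),
      (∀ (g : G) (u v : V), c (g • u) (g • v) = c u v) →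
      (∀ u v, 0 ≤ c u v) → (∀ u v, c u v = c v u) → 1 ≤ k →
      (∀ u v : V, ∃ (i : Fin (k + 1)) (g : G),
        (g • (p i).1 = u ∧ g • (p i).2 = v) ∨ (g • (p i).1 = v ∧ g • (p i).2 = u)) →
      (∀ d : V → V → ℝ, IsSemimetric d →
        phi c * ∑ u, ∑ v, d u v ≤ 16 * k * ∑ u, ∑ v, c u v * d u v) ∧
      phi c ≤ 16 * k * glValue c ∧
      ((∀ u v : V, ∃ g : G, g • u = v ∧ g • v = u) →
        phi c ≤ 461 * Real.sqrt k * glValue c)) ∧
    (∀ (G : Type) [Group G] [Fintype G] [DecidableEq G] [Nontrivial G] (γ : G → ℝ) (D : ℕ),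
      (∀ g, 0 ≤ γ g) → (∀ g, γ g⁻¹ = γ g) → (∀ g x, γ (x * g * x⁻¹) = γ g) → 1 ≤ D →
      (∀ J : Set G, (∀ g ∈ J, γ g ≠ 0) → (∀ g ∈ J, g⁻¹ ∈ J) →
        (∀ g ∈ J, ∀ x, x * g * x⁻¹ ∈ J) → ∀ g ∈ Subgroup.closure J,
          ∃ l : List G, l.length ≤ D ∧ (∀ a ∈ l, a ∈ J) ∧ l.prod = g) →
      phi (fun x y => γ (x⁻¹ * y)) ≤
        461 * Real.sqrt D * glValue (fun x y => γ (x⁻¹ * y))) ∧
    (∀ (V ι : Type) [Fintype V] [DecidableEq V] [Nontrivial V] [DecidableEq ι]
      (r : V → V → ι) (c : V → V → ℝ) (m : ℕ),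
      Coherent r → ClassFun r c → (∀ u v, 0 ≤ c u v) → (∀ u v, c u v = c v u) →
      (∀ w, ((univ.filter fun u => u ≠ w).image fun u => r u w).card ≤ m) →
      (∀ x : V → EuclideanSpace ℝ V,
        phi c * ∑ u, ∑ v, ‖x u - x v‖ ^ 2 ≤ m * ∑ u, ∑ v, c u v * ‖x u - x v‖ ^ 2) ∧
      phi c ≤ m * glValue c) ∧
    (∀ (V G : Type) [Fintype V] [DecidableEq V] [Nontrivial V] [Group G] [MulAction G V]
      (c : V → V → ℝ) (m : ℕ),
      (∀ (g : G) (u v : V), c (g • u) (g • v) = c u v) →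
      (∀ u v, 0 ≤ c u v) → (∀ u v, c u v = c v u) →
      (∀ w : V, ∃ p : Fin m → V, ∀ u, u ≠ w → ∃ (i : Fin m) (g : G), g • w = w ∧ g • p i = u) →
      (∀ x : V → EuclideanSpace ℝ V,
        phi c * ∑ u, ∑ v, ‖x u - x v‖ ^ 2 ≤ m * ∑ u, ∑ v, c u v * ‖x u - x v‖ ^ 2) ∧
      phi c ≤ m * glValue c) ∧
    (∀ (V ι : Type) [Fintype V] [DecidableEq V] [Nontrivial V] [DecidableEq ι]
      (r : V → V → ι) (c : V → V → ℝ) (k : ℕ) (F : Finset ι),
      Coherent r → ClassFun r c → (∀ u v, 0 ≤ c u v) → (∀ u v, c u v = c v u) →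
      F.card ≤ k → (∀ u v, u ≠ v → r u v ∈ F ∨ r v u ∈ F) →
      (∀ d : V → V → ℝ, IsSemimetric d →
        phi c * ∑ u, ∑ v, d u v ≤ 9 * k * ∑ u, ∑ v, c u v * d u v) ∧
      phi c ≤ 9 * k * glValue c ∧
      (Comm r → phi c ≤ Real.sqrt (32 * k) * glValue c)) := by
  classical
  refine ⟨?_, ?_, ?_, ?_, ?_, ?_, ?_, ?_⟩
  · intro V ι _ _ _ _ r c D hr hcr hc hs hD1 hD
    exact gl_of_lr hr hcr hc hs hD1 hD
  · intro V ι _ _ r hr hsym
    exact comm_of_symm hr hsym
  · intro V ι κ _ _ _ r s c k hr hs hk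
    exact shortChains_of_pairs hr s hs c hk
  · intro V G _ _ _ _ _ c k p hinv hc hs hk hp
    have h := gl_of_lr (coherent_orbit (V := V) (G := G)) (orbit_classFun hinv) hc hs hk
      (orbit_short c p hp)
    exact ⟨h.1, h.2.1, fun hsw => h.2.2 (orbit_comm hsw)⟩
  · intro G _ _ _ _ γ D h0 hinv hconj hD1 hD
    have hs : ∀ x y : G, γ (x⁻¹ * y) = γ (y⁻¹ * x) := by
      intro x y
      rw [← hinv (x⁻¹ * y)]
      congr 1
      group
    exact (gl_of_lr coherent_conj (conj_classFun hconj) (fun x y => h0 _) hs hD1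
      (conj_short hD)).2.2 comm_conj
  · intro V ι _ _ _ _ r c m hr hcr hc hs hm
    exact Vale.Agent.P318.R2.H858.spectral hr hcr hc hs hm
  · intro V G _ _ _ _ _ c m hinv hc hs hp
    refine Vale.Agent.P318.R2.H858.spectral (coherent_orbit (V := V) (G := G))
      (orbit_classFun hinv) hc hs fun w => ?_
    obtain ⟨p, hp⟩ := hp w
    refine (card_le_card (t := univ.image fun i : Fin m =>
      MulAction.orbit G ((p i, w) : V × V)) ?_).trans (card_image_le.trans (by simp))
    intro a ha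
    obtain ⟨u, hu, rfl⟩ := mem_image.1 ha
    obtain ⟨i, g, h1, h2⟩ := hp u (by simpa using hu)
    refine mem_image.2 ⟨i, mem_univ _, ?_⟩
    rw [orbit_eq]
    refine ⟨g⁻¹, ?_, ?_⟩
    · rw [← h2, inv_smul_smul]
    · rw [inv_smul_eq_iff, h1]
  · intro V ι _ _ _ _ r c k F hr hcr hc hs hF hcov
    have h := Vale.Agent.P318.R2.H858.cover hr hcr hc hs F hF hcov
    have hlr : ∀ d : V → V → ℝ, IsSemimetric d →
        phi c * ∑ u, ∑ v, d u v ≤ 9 * k * ∑ u, ∑ v, c u v * d u v :=
      fun d hd => h.1 d hd.1 hd.2.1 hd.2.2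
    refine ⟨hlr, ?_, h.2⟩
    have hk : (0 : ℝ) < k := by
      obtain ⟨a, b, hab⟩ := exists_pair_ne V
      have h0 : 0 < F.card := by
        rcases hcov a b hab with h' | h'
        · exact card_pos.2 ⟨_, h'⟩
        · exact card_pos.2 ⟨_, h'⟩
      exact_mod_cast lt_of_lt_of_le h0 hF
    refine Vale.Agent.P318.H724.phi_le_gl' (by positivity) fun d hneg => ?_
    obtain ⟨⟨X, hX⟩, ht⟩ := hneg
    exact hlr d ⟨fun x => by rw [hX]; simp, fun x y => by rw [hX, hX, norm_sub_rev], ht⟩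

end Vale.Agent.Results.P318.AssociationSchemes
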