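import Vale.Agent.P318.R2.H356.FamAll
import Vale.Agent.P318.R2.H356.FamRat
import Vale.Agent.P318.R2.H378.BorGap

/-!
# The Goemans–Linial gap for conjugation invariant capacities on finite groups

`phi`, `glValue`, `IsNegTypeSemimetric` and `cutCap` are defined in
`Vale.Agent.P318.H867.Defs`.
-/

namespace Vale.Agent.Results.P318.ConjugationInvariant

open Vale.Agent.P318.H867

/-- `T` is isomorphic to an alternating group of degree at least five. -/
def IsAlt (T : Type) [Group T] : Prop :=
  ∃ n : ℕ, 5 ≤ n ∧ Nonempty (T ≃* alternatingGroup (Fin n))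

/-- `T` is isomorphic to `PSL(n, F)`, `n ≥ 2`, `F` a finite field. -/
def IsPSL (T : Type) [Group T] : Prop :=
  ∃ (n : ℕ) (F : Type) (_ : Field F) (_ : Finite F), 2 ≤ n ∧
    Nonempty (T ≃* Matrix.ProjectiveSpecialLinearGroup (Fin n) F)

/-- `T` is isomorphic to the quotient of `H` by its center. -/
def ModCenter (T H : Type) [Group T] [Group H] : Prop :=
  Nonempty (T ≃* H ⧸ Subgroup.center H)

/-- `T` is isomorphic to `PSp(2 n, F)`, `n ≥ 2`, `F` a finite field. -/
def IsPSp (T : Type) [Group T] : Prop :=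
  ∃ (n : ℕ) (F : Type) (_ : Field F) (_ : Finite F), 2 ≤ n ∧
    ModCenter T (Matrix.symplecticGroup (Fin n) F)

/-- `h` is a nondegenerate hermitian form with respect to the involution `s ≠ 1` of `K`. -/
def Hermitian {K V : Type} [Field K] [AddCommGroup V] [Module K V] (s : K ≃+* K)
    (h : V → V → K) : Prop :=
  (∀ a, s (s a) = a) ∧ (∃ a, s a ≠ a) ∧
  (∀ x y z, h (x + y) z = h x z + h y z) ∧ (∀ (a : K) x y, h (a • x) y = a * h x y) ∧
  (∀ x y, h y x = s (h x y)) ∧ ∀ x, (∀ y, h x y = 0) → x = 0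

/-- `S` is the group of the linear bijections of determinant one which preserve `h`. -/
def IsSU {K V : Type} [Field K] [AddCommGroup V] [Module K V] (h : V → V → K)
    (S : Subgroup (V ≃ₗ[K] V)) : Prop :=
  ∀ g, g ∈ S ↔ (∀ x y, h (g x) (g y) = h x y) ∧ LinearEquiv.det g = 1

/-- `T` is isomorphic to `PSU(V, h)`, where `h` is a nondegenerate hermitian form on a space `V` of
dimension at least three over a finite field. -/
def IsPSU (T : Type) [Group T] : Prop :=
  ∃ (K : Type) (_ : Field K) (V : Type) (_ : AddCommGroup V) (_ : Module K V) (s : K ≃+* K)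
    (h : V → V → K) (S : Subgroup (V ≃ₗ[K] V)),
    Finite K ∧ FiniteDimensional K V ∧ 3 ≤ Module.finrank K V ∧ Hermitian s h ∧ IsSU h S ∧
    ModCenter T S

/-- The group generated by the Siegel transformations of the quadratic form `Q`. -/
def SiegelGroup {K V : Type} [Field K] [AddCommGroup V] [Module K V] (Q : QuadraticForm K V) :
    Subgroup (V ≃ₗ[K] V) :=
  Subgroup.closure {g | ∃ e w : V, Q e = 0 ∧ QuadraticMap.polar Q e w = 0 ∧
    ∀ x, g x = x + QuadraticMap.polar Q x e • w -
      (QuadraticMap.polar Q x w + Q w * QuadraticMap.polar Q x e) • e}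

/-- `T` is isomorphic to `PΩ(V, Q)`, where `V` has dimension at least seven over a finite field and
the polar form of `Q` is nondegenerate. -/
def IsPOmega (T : Type) [Group T] : Prop :=
  ∃ (K : Type) (_ : Field K) (V : Type) (_ : AddCommGroup V) (_ : Module K V)
    (Q : QuadraticForm K V), Finite K ∧ FiniteDimensional K V ∧ 7 ≤ Module.finrank K V ∧
    (∀ x, (∀ y, QuadraticMap.polar Q x y = 0) → x = 0) ∧ ModCenter T (SiegelGroup Q)

/-- `T` has a solvable subgroup `B` of derived length at most `s` with at most `r` double cosets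
`B t B`. -/
def FewCosets (T : Type) [Group T] (r s : ℕ) : Prop :=
  ∃ B : Subgroup T, derivedSeries B s = ⊥ ∧
    ∃ R : Finset T, R.card ≤ r ∧ ∀ g : T, ∃ t ∈ R, ∃ b ∈ B, ∃ b' ∈ B, g = b * t * b'

/-- Every nonabelian composition factor of `G`, that is, every nonabelian simple quotient of a
subnormal subgroup, satisfies `P`. -/
def NonabFactors (G : Type) [Group G] (P : (T : Type) → [Group T] → Prop) : Prop :=
  ∀ L : Subgroup G, L.IsSubnormal → ∀ (R : Subgroup L) [R.Normal],
    IsSimpleGroup (L ⧸ R) → (∃ a b : L ⧸ R, a * b ≠ b * a) → P (L ⧸ R)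

/-- A nonnegative, symmetric and conjugation invariant function. -/
def ClassWeight {G : Type} [Group G] (c : G → ℝ) : Prop :=
  (∀ g, 0 ≤ c g) ∧ (∀ g, c g⁻¹ = c g) ∧ ∀ x g, c (x * g * x⁻¹) = c g

/-- The value at `g` depends only on the cyclic subgroup generated by `g`. -/
def CyclicWeight {G : Type} [Group G] (c : G → ℝ) : Prop :=
  ∀ g h, Subgroup.zpowers g = Subgroup.zpowers h → c g = c h

/-- `1100 (1 + log (1 + min (M, e, log |A|)))`, where `A` is the abelianization of `G`, `M` the
number of its nontrivial elements which are the class of some `g` with `c g ≠ 0`, and `e` its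
exponent. -/
noncomputable def logFactor {G : Type} [Group G] (c : G → ℝ) : ℝ :=
  1100 * (1 + Real.log (1 + min
    (Nat.card {z : Abelianization G // z ≠ 1 ∧ ∃ g, Abelianization.of g = z ∧ c g ≠ 0} : ℝ)
    (min (Monoid.exponent (Abelianization G) : ℝ) (Real.log (Nat.card (Abelianization G))))))

/-- The capacities `c (x⁻¹ * y)` on `G`. -/
def cayley {G : Type} [Group G] (c : G → ℝ) : G → G → ℝ := fun x y => c (x⁻¹ * y)

/-- The sparsest cut value is at most `B + logFactor c` times the Goemans–Linial value.  If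
`c g` depends only on the cyclic subgroup generated by `g`, then the sparsest cut value is at most
`B` times the Goemans–Linial value, and even at most `B` times each quotient
`∑ c (x, y) (u x - u y) ^ 2 / ∑ (u x - u y) ^ 2`, `u` a real function on `G`. -/
def Bounds {G : Type} [Group G] [Fintype G] [DecidableEq G] (c : G → ℝ) (B : ℝ) : Prop :=
  phi (cayley c) ≤ (B + logFactor c) * glValue (cayley c) ∧
  (CyclicWeight c → phi (cayley c) ≤ B * glValue (cayley c) ∧
    ∀ u : G → ℝ, phi (cayley c) * ∑ x, ∑ y, (u x - u y) ^ 2 ≤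
      B * ∑ x, ∑ y, cayley c x y * (u x - u y) ^ 2)

/-- Conjugation invariant capacities `c (x⁻¹ * y)` on a finite group `G`.

(1) If `G` is solvable, then `Bounds c 8`.

(2) For all `r`, `s` there is a constant `K` such that `Bounds c K` for every finite group `G` all
of whose nonabelian composition factors are alternating groups, simple classical groups (projective
special linear, symplectic, special unitary, `PΩ`; of any degree, over any finite field), or have a
solvable subgroup of derived length at most `s` with at most `r` double cosets (Borel subgroups of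
the simple groups of Lie type of bounded rank; the trivial subgroup if the order is at most
`r`). -/
theorem result :
    (∀ (G : Type) [Group G] [Fintype G] [DecidableEq G] [Nontrivial G] (c : G → ℝ),
      Group.IsSolvable G → ClassWeight c → Bounds c 8) ∧
    ∀ r s : ℕ, ∃ K : ℝ, ∀ (G : Type) [Group G] [Fintype G] [DecidableEq G] [Nontrivial G]
      (c : G → ℝ), NonabFactors G (fun T _ => IsAlt T ∨ IsPSL T ∨ IsPSp T ∨ IsPSU T ∨
        IsPOmega T ∨ FewCosets T r s) → ClassWeight c → Bounds c K := by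
  constructor
  · intro G _ _ _ _ c hG hc
    have h1 := Vale.Agent.P318.R2.H356.gl_solvable hG hc.1 hc.2.1 hc.2.2
    refine ⟨h1, fun hr => ?_⟩
    have h2 := Vale.Agent.P318.R2.H356.spec_solvable hG hc.1 hc.2.1 hc.2.2 hr
    exact ⟨h2.2, h2.1⟩
  · intro r s
    set κ₀ : ℝ := min (1 / 262144 ^ 2) ((1 / 2) ^ (2 ^ s - 1) / (16 ^ s * 4 ^ r)) with hκ₀
    have hκ0 : 0 < κ₀ := lt_min (by norm_num) (by positivity)
    -- the uniform gap of the families
    have hP : ∀ (T : Type) [Group T] [Finite T] [IsSimpleGroup T], (∃ a b : T, a * b ≠ b * a) →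
        (IsPSL T ∨ IsPSp T ∨ IsPSU T ∨ IsPOmega T ∨ FewCosets T r s) →
        Vale.Agent.P318.R2.H678.Gap T κ₀ := by
      intro T _ _ _ hnc hT
      rcases hT with ⟨n, F, _, _, hn, ⟨e⟩⟩ | ⟨n, F, _, _, hn, ⟨e⟩⟩ |
        ⟨K, _, V, _, _, σ, h, S, hK, hV, hd, ⟨h1, h2, h3, h4, h5, h6⟩, h7, ⟨e⟩⟩ |
        ⟨K, _, V, _, _, Q, hK, hV, hd, hnd, he⟩ | hT
      · exact Vale.Agent.P318.R2.H924.Gap.mono
          (Vale.Agent.P318.R2.H356.gap_psl_all hn e) ((min_le_left _ _).trans (by norm_num))
      · exact Vale.Agent.P318.R2.H924.Gap.mono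
          (Vale.Agent.P318.R2.H356.gap_psp_all hn e) ((min_le_left _ _).trans (by norm_num))
      · exact Vale.Agent.P318.R2.H924.Gap.mono
          (Vale.Agent.P318.R2.H356.gap_psu_all hd h1 h2 h3 h4 h5 h6 h7 e)
          ((min_le_left _ _).trans (by norm_num))
      · exact Vale.Agent.P318.R2.H924.Gap.mono
          (Vale.Agent.P318.R2.H924.Om.gap_pomega ⟨K, _, V, _, _, Q, _, hK, hV, hd, hnd, rfl, he⟩)
          ((min_le_left _ _).trans (by norm_num))
      · exact Vale.Agent.P318.R2.H924.Gap.mono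
          (Vale.Agent.P318.R2.H378.gap_bor hnc hT) (min_le_right _ _)
    refine ⟨1299276296 + 128 / κ₀ + 128 / 1, ?_⟩
    intro G _ _ _ _ c hf hc
    have hd : ∀ L : Subgroup G, L.IsSubnormal → ∀ (R : Subgroup L) [R.Normal],
        IsSimpleGroup (L ⧸ R) → (∃ a b : L ⧸ R, a * b ≠ b * a) →
        (∃ n, 5 ≤ n ∧ Nonempty ((L ⧸ R) ≃* alternatingGroup (Fin n))) ∨
          (IsPSL (L ⧸ R) ∨ IsPSp (L ⧸ R) ∨ IsPSU (L ⧸ R) ∨ IsPOmega (L ⧸ R) ∨
            FewCosets (L ⧸ R) r s) ∨ Vale.Agent.P318.R2.H678.Gap (L ⧸ R) 1 := by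
      intro L hL R _ h1 h2
      rcases hf L hL R h1 h2 with h | h
      · exact Or.inl h
      · exact Or.inr (Or.inl h)
    refine ⟨Vale.Agent.P318.R2.H356.main_fam hκ0 hP one_pos hd hc.1 hc.2.1 hc.2.2,
      fun hr => ?_⟩
    have h3 := Vale.Agent.P318.R2.H356.spec_fam hκ0 hP one_pos hd hc.1 hc.2.1 hc.2.2 hr
    exact ⟨h3.2, h3.1⟩

end Vale.Agent.Results.P318.ConjugationInvariant
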