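import Vale.Agent.P318.R2.H202.SchemeProof

/-!
# The Goemans-Linial gap is at most two on signed schemes

`phi`, `glValue`, `IsNegTypeSemimetric` and `cutCap` are defined in
`Vale.Agent.P318.H867.Defs`, `Scheme` in `Vale.Agent.P318.R2.H202.SchemeDefs`.
-/

open Finset

namespace Vale.Agent.Results.P318.SignedSpectra

open Vale.Agent.P318.H867 Vale.Agent.P318.R2.H202

/-- There is a list of at most `2 |V|` cuts such that for all capacities that are, up to a factor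
`L`, a function of the class of the pair, one of the cuts of the list has ratio at most `2 L`
times the spectral bound and at most `2 L` times the Goemans-Linial value. -/
theorem result (V R : Type) [Fintype V] [DecidableEq V] [Nontrivial V] (ρ : V → V → R)
    (hρ : Scheme V R ρ) :
    ∃ 𝓛 : Finset (Finset V), 𝓛.card ≤ 2 * Fintype.card V ∧
      (∀ S ∈ 𝓛, S.Nonempty ∧ Sᶜ.Nonempty) ∧
      ∀ (φ : R → ℝ) (_ : ∀ x y, 0 ≤ φ (ρ x y)) (L : ℝ) (_ : 1 ≤ L) (c : V → V → ℝ)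
        (_ : ∀ x y, φ (ρ x y) ≤ c x y ∧ c x y ≤ L * φ (ρ x y)),
        ∃ S ∈ 𝓛,
          (∀ u : V → ℝ, cutCap c S / ((S.card : ℝ) * ((Sᶜ).card : ℝ)) *
            ∑ x, ∑ y, (u x - u y) ^ 2 ≤ 2 * L * ∑ x, ∑ y, c x y * (u x - u y) ^ 2) ∧
          phi c ≤ cutCap c S / ((S.card : ℝ) * ((Sᶜ).card : ℝ)) ∧
          cutCap c S / ((S.card : ℝ) * ((Sᶜ).card : ℝ)) ≤ 2 * L * glValue c := by
  obtain ⟨𝓛, h1, h2, h3⟩ := (hρ.signed inferInstance).list hρ.symm
  refine ⟨𝓛, h1, h2, fun φ hφ L hL c hc => ?_⟩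
  obtain ⟨S, hS, h4, h5⟩ := h3 φ hφ L hL c hc
  refine ⟨S, hS, h4, ?_, h5⟩
  obtain ⟨h6, h7⟩ := h2 S hS
  have hpos : 0 < (S.card : ℝ) * ((Sᶜ).card : ℝ) := by
    have := h6.card_pos
    have := h7.card_pos
    positivity
  rw [le_div_iff₀ hpos]
  exact phi_mul_le (fun x y => (hφ x y).trans (hc x y).1) S

end Vale.Agent.Results.P318.SignedSpectra
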