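import Vale.Agent.P318.R2.H344.Final
import Vale.Agent.P318.R2.H821.Cover
import Vale.Agent.P318.R2.H821.SpreadAlpha
import Vale.Agent.P318.R2.H29.Part
import Vale.Agent.P318.R2.H821.Threshold

/-!
# The Goemans–Linial gap: spread vertices, one structured cut, and low threshold rank

`phi`, `glValue`, `IsNegTypeSemimetric` and `cutCap` are defined in
`Vale.Agent.P318.H867.Defs`, `Typed` and `LeafSet` in `Vale.Agent.P318.R2.H344.Defs`, `cutRank`
in `Vale.Agent.P318.R2.H821.Forms`, `SpreadAt` and `Carries` in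
`Vale.Agent.P318.R2.H821.SpreadCut`, `walk` in `Vale.Agent.P318.R2.H29.Walk`, and `lap` and
`lowCount` in `Vale.Agent.P318.R2.H305.Spectral`.
-/

open Finset

set_option linter.unusedSectionVars false

namespace Vale.Agent.Results.P318.TwinCuts

open Vale.Agent.P318.H867 Vale.Agent.P318.R2.H344 Vale.Agent.P318.R2.H821
  Vale.Agent.P318.R2.H29 Vale.Agent.P318.R2.H305

/-- The capacities between vertices of `U`, and `0` elsewhere. -/
noncomputable def inside {V : Type} [DecidableEq V] (c : V → V → ℝ) (U : Finset V) :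
    V → V → ℝ :=
  fun x y => if x ∈ U ∧ y ∈ U then c x y else 0

/-- At most `k` vertices meet all pairs of positive capacity between `A` and its complement. -/
def Covered {V : Type} (c : V → V → ℝ) (k : ℕ) (A : Finset V) : Prop :=
  ∃ X : Finset V, X.card ≤ k ∧ ∀ x ∈ A, x ∉ X → ∀ y ∉ A, y ∉ X → c x y = 0

/-- The capacities between `A` and its complement are, up to the factor `H` and the total error
`E`, a sum of `k` products of nonnegative functions. -/
def NearSum {V : Type} [Fintype V] [DecidableEq V] (c : V → V → ℝ) (k : ℕ) (H E : ℝ)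
    (A : Finset V) : Prop :=
  ∃ a b : Fin k → V → ℝ, (∀ i x, 0 ≤ a i x) ∧ (∀ i y, 0 ≤ b i y) ∧
    ∑ x ∈ A, ∑ y ∈ Aᶜ, (max 0 (c x y - H * ∑ i, a i x * b i y) +
      2 * H * max 0 (∑ i, a i x * b i y - c x y)) ≤ E

/-- The capacities between `A` and its complement are nearly a sum of `k` products, or have `k`
types of rows, or are met by `k` vertices, or are `0` and `1` with a cut rank at most
`log₂ k`. -/
def Simple {V : Type} [Fintype V] [DecidableEq V] (c : V → V → ℝ) (k : ℕ) (H E : ℝ)
    (A : Finset V) : Prop :=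
  NearSum c k H E A ∨ Typed c k H A ∨ Covered c k A ∨
    (∀ i j, c i j = 0 ∨ c i j = 1) ∧ 2 ^ cutRank c A ≤ k

/-- One structured cut of the capacities inside `U`: there is a set `A` with `Simple` capacities
to its complement such that `A` and its complement have at least `n / (3 b)` vertices, or `V` is
the leaf set of a binary tree such that the set of the leaves below each inner node is such an
`A`, or there are at least `n / (24 b)` vertices outside `U`. -/
def OneCut {V : Type} [Fintype V] [DecidableEq V] (c : V → V → ℝ) (k : ℕ) (H b : ℝ)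
    (U : Finset V) : Prop :=
  (∃ A : Finset V, (Fintype.card V : ℝ) ≤ 3 * b * A.card ∧
    (Fintype.card V : ℝ) ≤ 3 * b * Aᶜ.card ∧
    Simple (inside c U) k H (phi c * (Fintype.card V : ℝ) ^ 2 / (24 * b)) A) ∨
  LeafSet (Simple (inside c U) k H (phi c * (Fintype.card V : ℝ) ^ 2 / (24 * b)))
    (univ : Finset V) ∨
  (Fintype.card V : ℝ) ≤ 24 * b * Uᶜ.card

/-- Every vertex `w` outside `U` is spread: for capacities `e` which `c` carries with congestion
`H` every set with three quarters of the row of `w` has at least `n / k` elements, or the random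
walk from `w` is, after `t w ≤ H` steps, in no set of fewer than `n / k` vertices with
probability at least `3 / 4`, or `c` is `0`/`1` and `w` has degree at least `4 n / (3 k)`. -/
def SpreadOutside {V : Type} [Fintype V] [DecidableEq V] (c : V → V → ℝ) (k : ℕ) (H : ℝ)
    (U : Finset V) : Prop :=
  (∃ e : V → V → ℝ, Carries c e H ∧ ∀ w ∉ U, SpreadAt e k w) ∨
  (∃ t : V → ℕ, (∀ w, (t w : ℝ) ≤ H) ∧ ∀ w ∉ U, ∀ S : Finset V,
    3 ≤ 4 * ∑ y ∈ S, (walk c ^ t w) w y → Fintype.card V ≤ k * S.card) ∨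
  (∀ i j, c i j = 0 ∨ c i j = 1) ∧
    ∀ w ∉ U, 4 * (Fintype.card V : ℝ) ≤ 3 * k * ∑ y, c w y

/-- `Φ(c) ≤ K GL(c)`, and every semimetric satisfies the sparsest cut inequality with the
factor `K'`. -/
def GapLE {V : Type} [Fintype V] [DecidableEq V] (c : V → V → ℝ) (K K' : ℝ) : Prop :=
  phi c ≤ K * glValue c ∧
    ∀ d : V → V → ℝ, (∀ i, d i i = 0) → (∀ i j, d i j = d j i) →
      (∀ i j k, d i k ≤ d i j + d j k) →
      phi c * ∑ i, ∑ j, d i j ≤ K' * ∑ i, ∑ j, c i j * d i j

section

variable {V : Type} [Fintype V] [DecidableEq V] [Nontrivial V] {c e : V → V → ℝ}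

lemma inside_nonneg (hc : ∀ i j, 0 ≤ c i j) (U : Finset V) : ∀ i j, 0 ≤ inside c U i j := by
  intro i j
  unfold inside
  split_ifs
  · exact hc i j
  · exact le_rfl

lemma nearSum_of_ranked {k : ℕ} {H E : ℝ} (hE : 0 ≤ E) {A : Finset V} (h : Ranked c k H A) :
    NearSum c k H E A := by
  obtain ⟨a, b, ha, hb, hab⟩ := h
  refine ⟨a, b, ha, hb, le_trans (le_of_eq ?_) hE⟩
  refine sum_eq_zero fun x hx => sum_eq_zero fun y hy => ?_
  obtain ⟨h1, h2⟩ := hab x hx y (mem_compl.1 hy)
  rw [max_eq_left (by linarith), max_eq_left (by linarith), mul_zero, add_zero]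

lemma nearSum_of_simple (hc : ∀ i j, 0 ≤ c i j) {k : ℕ} {H E : ℝ} (hH : 1 ≤ H) (hE : 0 ≤ E)
    {A : Finset V} (h : Simple c k H E A) : NearSum c k H E A := by
  have h1 : Typed c k 1 A → Ranked c k H A := fun ⟨f, hf⟩ =>
    ranked_of_typed hc ⟨f, fun a ha a' ha' hff b hb => (hf a ha a' ha' hff b hb).trans
      (mul_le_mul_of_nonneg_right hH (hc a' b))⟩
  rcases h with h | h | ⟨X, hX, h⟩ | ⟨h01, h⟩
  · exact h
  · exact nearSum_of_ranked hE (ranked_of_typed hc h)
  · refine nearSum_of_ranked hE ?_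
    obtain ⟨a, b, ha, hb, hab⟩ := ranked_of_cover hc hX h
    refine ⟨a, b, ha, hb, fun x hx y hy => ⟨(hab x hx y hy).1, (hab x hx y hy).2.trans ?_⟩⟩
    exact mul_le_mul_of_nonneg_right hH
      (sum_nonneg fun i _ => mul_nonneg (ha i x) (hb i y))
  · obtain ⟨f, hf⟩ := typed_of_cutRank h01 (le_refl (cutRank c A))
    exact nearSum_of_ranked hE (h1 ⟨fun x => Fin.castLE h (f x), fun a ha a' ha' hff b hb =>
      hf a ha a' ha' (Fin.castLE_injective h hff) b hb⟩)

/-- Structure inside `U` is structure between the vertices which are not spread. -/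
lemma structuredCut_of_simple (hc : ∀ i j, 0 ≤ c i j) {k : ℕ} {H b : ℝ} (hH : 1 ≤ H)
    (hb1 : 1 ≤ b) {U : Finset V} (hU : ∀ w ∉ U, SpreadAt e k w) {A : Finset V}
    (hA : (Fintype.card V : ℝ) ≤ 3 * b * A.card) (hA2 : (Fintype.card V : ℝ) ≤ 3 * b * Aᶜ.card)
    (h : Simple (inside c U) k H (phi c * (Fintype.card V : ℝ) ^ 2 / (24 * b)) A) :
    StructuredCut c e k H (1 / (3 * b)) A := by
  classical
  have hb0 : 0 < b := by linarith
  have hE : 0 ≤ phi c * (Fintype.card V : ℝ) ^ 2 / (24 * b) :=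
    div_nonneg (mul_nonneg (phi_nonneg hc) (sq_nonneg _)) (by linarith)
  obtain ⟨f, g, hf, hg, h⟩ := nearSum_of_simple (inside_nonneg hc U) hH hE h
  have hAc : (Aᶜ.card : ℝ) = Fintype.card V - A.card := by
    rw [card_compl, Nat.cast_sub (card_le_univ A)]
  have hα : ∀ r : ℝ, 1 / (3 * b) * r = r / (3 * b) := fun r => by ring
  refine ⟨?_, ?_, f, g, hf, hg, ?_⟩
  · rw [hα, div_le_iff₀ (by positivity)]
    linarith
  · rw [sub_mul, hα, one_mul, le_sub_comm, ← hAc, div_le_iff₀ (by positivity)]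
    linarith
  have h0 : ∀ x y, 0 ≤ max 0 (inside c U x y - H * ∑ i, f i x * g i y) +
      2 * H * max 0 (∑ i, f i x * g i y - inside c U x y) := fun x y =>
    add_nonneg (le_max_left _ _) (mul_nonneg (by linarith) (le_max_left _ _))
  have h1 : ∑ x ∈ A.filter (fun x => ¬ SpreadAt e k x),
      ∑ y ∈ Aᶜ.filter (fun y => ¬ SpreadAt e k y),
      (max 0 (c x y - H * ∑ i, f i x * g i y) + 2 * H * max 0 (∑ i, f i x * g i y - c x y)) ≤
      ∑ x ∈ A, ∑ y ∈ Aᶜ, (max 0 (inside c U x y - H * ∑ i, f i x * g i y) +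
        2 * H * max 0 (∑ i, f i x * g i y - inside c U x y)) := by
    calc _ = ∑ x ∈ A.filter (fun x => ¬ SpreadAt e k x),
        ∑ y ∈ Aᶜ.filter (fun y => ¬ SpreadAt e k y),
        (max 0 (inside c U x y - H * ∑ i, f i x * g i y) +
          2 * H * max 0 (∑ i, f i x * g i y - inside c U x y)) := by
          refine sum_congr rfl fun x hx => sum_congr rfl fun y hy => ?_
          have hx1 : x ∈ U := by
            by_contra hcon
            exact (mem_filter.1 hx).2 (hU x hcon)
          have hy1 : y ∈ U := by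
            by_contra hcon
            exact (mem_filter.1 hy).2 (hU y hcon)
          have h3 : inside c U x y = c x y := if_pos ⟨hx1, hy1⟩
          rw [h3]
      _ ≤ ∑ x ∈ A.filter (fun x => ¬ SpreadAt e k x), ∑ y ∈ Aᶜ,
        (max 0 (inside c U x y - H * ∑ i, f i x * g i y) +
          2 * H * max 0 (∑ i, f i x * g i y - inside c U x y)) :=
          sum_le_sum fun x _ => sum_le_sum_of_subset_of_nonneg (filter_subset _ _)
            fun y _ _ => h0 x y
      _ ≤ _ := sum_le_sum_of_subset_of_nonneg (filter_subset _ _)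
            fun x _ _ => sum_nonneg fun y _ => h0 x y
  have h2 := h1.trans h
  rw [le_div_iff₀ (by positivity)] at h2
  rw [hα, le_div_iff₀ (by positivity)]
  linarith

/-- **Spread vertices, and one structured cut between the others.** -/
theorem gap_of_oneCut (hnonneg : ∀ i j, 0 ≤ c i j) (hsymm : ∀ i j, c i j = c j i) (k : ℕ)
    (H b : ℝ) (U : Finset V) (hk : 1 ≤ k) (hH : 1 ≤ H) (hb : 1 ≤ b)
    (hspread : SpreadOutside c k H U) (hcut : OneCut c k H b U) :
    GapLE c (10 ^ 14 * (b * H) * Real.sqrt (1 + (Nat.log 2 k : ℝ)))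
      (52434 * (b * H + (Nat.log 2 k : ℝ))) := by
  have h14 : (10 : ℝ) ^ 14 = 100000000000000 := by norm_num
  rw [h14]
  obtain ⟨e, he, hU⟩ : ∃ e : V → V → ℝ, Carries c e H ∧ ∀ w ∉ U, SpreadAt e k w := by
    rcases hspread with h | ⟨t, ht, h⟩ | ⟨h01, h⟩
    · exact h
    · exact ⟨walkKernel c t, walkKernel_carries hnonneg hsymm ht, fun w hw =>
        spreadAt_walk hnonneg hsymm (h w hw)⟩
    · exact ⟨c, carries_self hnonneg hH, fun w hw => spreadAt_of_degree h01 (h w hw)⟩
  have hb0 : 0 < b := by linarith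
  have key : ∀ A : Finset V, (Fintype.card V : ℝ) ≤ 3 * b * A.card →
      (Fintype.card V : ℝ) ≤ 3 * b * Aᶜ.card →
      Simple (inside c U) k H (phi c * (Fintype.card V : ℝ) ^ 2 / (24 * b)) A →
      GapLE c (100000000000000 * (b * H) * Real.sqrt (1 + (Nat.log 2 k : ℝ)))
        (52434 * (b * H + (Nat.log 2 k : ℝ))) := by
    intro A h1 h2 h3
    have h4 := main_alpha hnonneg hsymm hk hH he (α := 1 / (3 * b)) (by positivity)
      (by rw [div_le_div_iff₀ (by positivity) (by norm_num)]; linarith)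
      (structuredCut_of_simple hnonneg hH hb hU h1 h2 h3)
    have h5 : H / (3 * (1 / (3 * b))) = b * H := by field_simp
    rw [h5] at h4
    exact h4
  rcases hcut with ⟨A, h1, h2, h3⟩ | h | h
  · exact key A h1 h2 h3
  · have h2 : 2 ≤ Fintype.card V := Fintype.one_lt_card
    obtain ⟨B, hB, h3, h4⟩ := h.balanced (fun v => Or.inr (Or.inl
      ⟨fun _ => ⟨0, hk⟩, fun x hx x' hx' _ y _ => by
        rw [mem_singleton] at hx hx'
        rw [hx, hx']
        exact le_mul_of_one_le_left (inside_nonneg hnonneg U v y) hH⟩)) h2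
      (by rw [card_univ]; omega)
    have h3' : (Fintype.card V : ℝ) ≤ 3 * B.card := by exact_mod_cast h3
    have h4' : (Fintype.card V : ℝ) ≤ 3 * Bᶜ.card := by
      have h5 : Bᶜ.card = Fintype.card V - B.card := card_compl B
      have h6 : Fintype.card V ≤ 3 * Bᶜ.card := by omega
      exact_mod_cast h6
    refine key B (h3'.trans ?_) (h4'.trans ?_) hB
    · exact mul_le_mul_of_nonneg_right (by linarith) (Nat.cast_nonneg _)
    · exact mul_le_mul_of_nonneg_right (by linarith) (Nat.cast_nonneg _)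
  · exact main_part hnonneg hsymm hk (one_le_mul_of_one_le_of_one_le hb hH) he
      (by linarith) (by nlinarith) h fun w hw => hU w (mem_compl.1 hw)

end

/-- **The gap for capacities with spread vertices and one structured cut between the others, and
for capacities whose Laplacian has few small eigenvalues.** -/
theorem result (V : Type) [Fintype V] [DecidableEq V] [Nontrivial V] (c : V → V → ℝ)
    (hnonneg : ∀ i j, 0 ≤ c i j) (hsymm : ∀ i j, c i j = c j i) :
    (∀ (k : ℕ) (H b : ℝ) (U : Finset V), 1 ≤ k → 1 ≤ H → 1 ≤ b →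
      SpreadOutside c k H U → OneCut c k H b U →
      GapLE c (10 ^ 14 * (b * H) * Real.sqrt (1 + (Nat.log 2 k : ℝ)))
        (52434 * (b * H + (Nat.log 2 k : ℝ)))) ∧
    ∀ (r : ℕ) (μ : ℝ), 0 < μ → lowCount c μ ≤ r →
      phi c ≤ 10 ^ 14 * (1 + phi c * (Fintype.card V : ℝ) / μ) *
        Real.sqrt (1 + (Nat.log 2 ((5000000 * (r + 1)) ^ r) : ℝ)) * glValue c := by
  refine ⟨gap_of_oneCut hnonneg hsymm, fun r μ hμ hr => ?_⟩
  have h14 : (10 : ℝ) ^ 14 = 100000000000000 := by norm_num
  rw [h14]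
  exact main_threshold hnonneg hsymm hμ hr

end Vale.Agent.Results.P318.TwinCuts
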